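import Vale.Agent.P181.TR.Defs
import Vale.Agent.P181.TL.H214.UpB

set_option autoImplicit false

/-!
# P181, TR (R5): the upper bound with several label rows

A highest weight polynomial is determined by the coefficients of the monomials of its first row,
and these coefficients are highest weight polynomials in the other rows.
-/

open MvPolynomial

namespace Vale.Agent.P181.TR.H283

open Vale.Agent.P181.T4 (HW)
open Vale.Agent.P181.H280 (plethMult)
open Vale.Agent.P181.SZ
open Vale.Agent.P181.TL.H214 (cf coeff_cf ins ins_zero ins_succ ins_rs rs r0 cf_mem upB)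

/-- **Row peel**, general form. -/
lemma peel_gen {m : ℕ} {σ : Type} [Fintype σ]
    (W : Submodule ℂ (MvPolynomial (Fin (m + 1) × σ) ℂ))
    (W' : Submodule ℂ (MvPolynomial (Fin m × σ) ℂ)) [FiniteDimensional ℂ W']
    (S : Finset (σ → ℕ)) (h1 : ∀ f ∈ W, ∀ d, cf d f ∈ W')
    (h2 : ∀ f ∈ W, ∀ v, coeff v f ≠ 0 → r0 v ∈ S) :
    Module.finrank ℂ W ≤ S.card * Module.finrank ℂ W' := by
  classical
  let L : W →ₗ[ℂ] (S → W') :=
    LinearMap.pi fun s => ((cf s.1).comp W.subtype).codRestrict _ fun f => h1 f.1 f.2 s.1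
  have hL : Function.Injective L := by
    rw [← LinearMap.ker_eq_bot, LinearMap.ker_eq_bot']
    rintro ⟨f, hf⟩ h
    apply Subtype.ext
    change f = 0
    apply MvPolynomial.ext
    intro v
    rw [coeff_zero]
    by_contra hv
    have h5 : cf (r0 v) f = 0 := congrArg Subtype.val (congrFun h ⟨r0 v, h2 f hf v hv⟩)
    apply hv
    rw [← ins_rs v, ← coeff_cf, h5, coeff_zero]
  have h := LinearMap.finrank_le_finrank_of_injective hL
  rw [Module.finrank_pi_fintype, Finset.sum_const, Finset.card_univ, smul_eq_mul,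
    Fintype.card_coe] at h
  exact h

/-- One row. -/
lemma peel_one {m a D : ℕ} (ha : 1 ≤ a) (mu : Fin (m + 1) → ℕ) (hD : mu 0 ≤ D) :
    Module.finrank ℂ (HW (m + 1) (Fin a) mu) ≤
      (D + a - 1).choose (a - 1) * Module.finrank ℂ (HW m (Fin a) fun i => mu i.succ) := by
  classical
  have h := peel_gen (HW (m + 1) (Fin a) mu) (HW m (Fin a) fun i => mu i.succ)
    (Finset.piAntidiag Finset.univ (mu 0)) (fun f hf d => cf_mem hf d)
    (fun f hf v hv => by
      rw [Finset.mem_piAntidiag]
      exact ⟨hf.1 v hv 0, fun i _ => Finset.mem_univ i⟩)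
  refine h.trans (Nat.mul_le_mul_right _ ?_)
  have hc : (Finset.piAntidiag (Finset.univ : Finset (Fin a)) (mu 0)).card =
      (a + mu 0 - 1).choose (mu 0) := by
    have h := Finset.card_finsuppAntidiag_nat_eq_choose (s := (Finset.univ : Finset (Fin a)))
      (mu 0)
    rw [Finset.finsuppAntidiag, Finset.card_map, Finset.card_attach, Finset.card_univ,
      Fintype.card_fin] at h
    exact h
  have h3 : (a + mu 0 - 1).choose (mu 0) = (a + mu 0 - 1).choose (a - 1) := by
    exact Nat.choose_symm_of_eq_add (by omega)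
  rw [hc, h3]
  exact Nat.choose_le_choose _ (by omega)

/-- Several rows. -/
lemma peel_rows {a D k : ℕ} (ha : 1 ≤ a) : ∀ (r : ℕ) (mu : Fin (k + r) → ℕ),
    (∀ l : Fin r, mu ⟨l, by omega⟩ ≤ D) →
    Module.finrank ℂ (HW (k + r) (Fin a) mu) ≤ ((D + a - 1).choose (a - 1)) ^ r *
      Module.finrank ℂ (HW k (Fin a) fun i : Fin k => mu ⟨r + i, by omega⟩) := by
  intro r
  induction r with
  | zero =>
    intro mu _
    rw [pow_zero, one_mul]
    have h3 : (fun i : Fin k => mu ⟨0 + i, by omega⟩) = mu := by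
      funext i
      congr 1
      apply Fin.ext
      exact Nat.zero_add _
    rw [h3]
    exact le_rfl
  | succ r ih =>
    intro mu h
    have h1 := peel_one (m := k + r) ha mu (h ⟨0, by omega⟩)
    have h2 := ih (fun i => mu i.succ) (fun l => h ⟨l + 1, by omega⟩)
    have h3 : (fun i : Fin k => (fun i : Fin (k + r) => mu i.succ) ⟨r + i, by omega⟩) =
        fun i : Fin k => mu ⟨r + 1 + i, by omega⟩ := by
      funext i
      change mu _ = mu _
      congr 1
      apply Fin.ext
      change r + (i : ℕ) + 1 = r + 1 + i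
      omega
    rw [h3] at h2
    refine h1.trans ((Nat.mul_le_mul_left _ h2).trans (le_of_eq ?_))
    rw [pow_succ]
    ring

/-- **(R5)** the upper bound with `r` label rows. -/
theorem upR : UpR := by
  intro a b k r lam ha hr
  obtain ⟨r, rfl⟩ : ∃ s, r = s + 1 := ⟨r - 1, by omega⟩
  have h1 := upB a b (k + 1 + r) lam
  have h2 := peel_rows (k := k + 1) (D := D2 lam) ha r (fun i => lam i.succ.succ) (fun l => by
    have h3 : (if 2 ≤ (((⟨l, by omega⟩ : Fin (k + 1 + r)).succ.succ : Fin (k + 1 + r + 2)) : ℕ)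
        then lam (⟨l, by omega⟩ : Fin (k + 1 + r)).succ.succ else 0) ≤ D2 lam :=
      Finset.single_le_sum (f := fun i : Fin (k + 1 + (r + 1) + 1) => if 2 ≤ (i : ℕ) then lam i
        else 0) (fun _ _ => Nat.zero_le _) (Finset.mem_univ _)
    rwa [if_pos (by change 2 ≤ (l : ℕ) + 1 + 1; omega)] at h3)
  have h4 : (fun i : Fin (k + 1) => (fun i : Fin (k + 1 + r) => lam i.succ.succ)
      ⟨r + i, by omega⟩) = ta (tl lam) := by
    funext i
    change lam _ = lam _
    congr 1
    apply Fin.ext
    change r + (i : ℕ) + 1 + 1 = (r + 1 + i) + 1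
    omega
  rw [h4] at h2
  refine h1.trans ((Nat.mul_le_mul_left _ h2).trans (le_of_eq ?_))
  rw [Nat.add_sub_cancel, mul_assoc]

/-- Highest weight polynomials with bounded exponents. -/
noncomputable def HB (m : ℕ) (σ : Type) [Fintype σ] (b : ℕ) (mu : Fin m → ℕ) :
    Submodule ℂ (MvPolynomial (Fin m × σ) ℂ) where
  carrier := {f | f ∈ HW m σ mu ∧ ∀ v, coeff v f ≠ 0 → ∀ p, v p ≤ b}
  zero_mem' := ⟨zero_mem _, fun v hv => absurd (coeff_zero v) hv⟩
  add_mem' := by
    rintro f g ⟨hf1, hf2⟩ ⟨hg1, hg2⟩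
    refine ⟨add_mem hf1 hg1, fun v hv j => ?_⟩
    rw [coeff_add] at hv
    by_cases h : coeff v f = 0
    · rw [h, zero_add] at hv
      exact hg2 v hv j
    · exact hf2 v h j
  smul_mem' := by
    rintro c f ⟨hf1, hf2⟩
    refine ⟨Submodule.smul_mem _ c hf1, fun v hv j => ?_⟩
    rw [coeff_smul, smul_eq_mul] at hv
    exact hf2 v (right_ne_zero_of_mul hv) j

instance (m : ℕ) (σ : Type) [Fintype σ] (b : ℕ) (mu : Fin m → ℕ) :
    FiniteDimensional ℂ (HB m σ b mu) := by
  have h : HB m σ b mu ≤ HW m σ mu := fun f hf => hf.1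
  exact FiniteDimensional.of_injective (Submodule.inclusion h) (Submodule.inclusion_injective h)

lemma peelB_one {m a b : ℕ} (mu : Fin (m + 1) → ℕ) :
    Module.finrank ℂ (HB (m + 1) (Fin a) b mu) ≤
      (b + 1) ^ a * Module.finrank ℂ (HB m (Fin a) b fun i => mu i.succ) := by
  classical
  have h := peel_gen (HB (m + 1) (Fin a) b mu) (HB m (Fin a) b fun i => mu i.succ)
    (Fintype.piFinset fun _ => Finset.range (b + 1))
    (fun f hf d => ⟨cf_mem hf.1 d, fun v hv p => by
      rw [coeff_cf] at hv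
      have h1 := hf.2 _ hv (p.1.succ, p.2)
      rwa [ins_succ] at h1⟩)
    (fun f hf v hv => by
      rw [Fintype.mem_piFinset]
      intro j
      exact Finset.mem_range.2 (Nat.lt_succ_of_le (hf.2 v hv (0, j))))
  rwa [Fintype.card_piFinset_const, Finset.card_range] at h

lemma peelB_rows {a b k : ℕ} : ∀ (r : ℕ) (mu : Fin (k + r) → ℕ),
    Module.finrank ℂ (HB (k + r) (Fin a) b mu) ≤ ((b + 1) ^ a) ^ r *
      Module.finrank ℂ (HB k (Fin a) b fun i : Fin k => mu ⟨r + i, by omega⟩) := by
  intro r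
  induction r with
  | zero =>
    intro mu
    rw [pow_zero, one_mul]
    have h3 : (fun i : Fin k => mu ⟨0 + i, by omega⟩) = mu := by
      funext i
      congr 1
      apply Fin.ext
      exact Nat.zero_add _
    rw [h3]
    exact le_rfl
  | succ r ih =>
    intro mu
    have h1 := peelB_one (m := k + r) (a := a) (b := b) mu
    have h2 := ih (fun i => mu i.succ)
    have h3 : (fun i : Fin k => (fun i : Fin (k + r) => mu i.succ) ⟨r + i, by omega⟩) =
        fun i : Fin k => mu ⟨r + 1 + i, by omega⟩ := by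
      funext i
      change mu _ = mu _
      congr 1
      apply Fin.ext
      change r + (i : ℕ) + 1 = r + 1 + i
      omega
    rw [h3] at h2
    refine h1.trans ((Nat.mul_le_mul_left _ h2).trans (le_of_eq ?_))
    rw [pow_succ]
    ring

/-- The cruder bound with the degrees `≤ b` (form of helper258): `r` rows are removed at the
cost `(b + 1) ^ (a r)`. -/
theorem up_crude (a b r k : ℕ) (l : ℕ) (x : Fin r → ℕ) (σ : Fin k → ℕ) :
    plethMult a b (r + k + 1) (Fin.cons l (Fin.append x σ) : Fin (r + k + 1) → ℕ) ≤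
      (b + 1) ^ (a * r) * Module.finrank ℂ (HW k (Fin a) σ) := by
  have h0 := R1a a b (r + k) (Fin.cons l (Fin.append x σ) : Fin (r + k + 1) → ℕ)
  have ht : tl (Fin.cons l (Fin.append x σ) : Fin (r + k + 1) → ℕ) = Fin.append x σ := by
    funext i
    exact Fin.cons_succ (α := fun _ => ℕ) _ _ _
  rw [ht] at h0
  have h1 : TI a b (r + k) (Fin.append x σ) ≤ HB (r + k) (Fin a) b (Fin.append x σ) := by
    intro f hf
    refine ⟨hf.1, fun v hv p => ?_⟩
    exact (Finset.single_le_sum (f := fun i => v (i, p.2)) (fun _ _ => Nat.zero_le _)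
      (Finset.mem_univ p.1)).trans (hf.2.2.1 v hv p.2)
  have h2 := Submodule.finrank_mono h1
  have h3 : ∀ (n : ℕ) (hn : n = k + r) (mu : Fin n → ℕ),
      Module.finrank ℂ (HB n (Fin a) b mu) ≤ ((b + 1) ^ a) ^ r *
        Module.finrank ℂ (HB k (Fin a) b fun i : Fin k => mu ⟨r + i, by omega⟩) := by
    intro n hn mu
    subst hn
    exact peelB_rows r mu
  have h4 := h3 (r + k) (Nat.add_comm _ _) (Fin.append x σ)
  have h5 : (fun i : Fin k => Fin.append x σ ⟨r + i, by omega⟩) = σ := by
    funext i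
    exact Fin.append_right x σ i
  rw [h5] at h4
  have h6 : HB k (Fin a) b σ ≤ HW k (Fin a) σ := fun f hf => hf.1
  have h7 := Submodule.finrank_mono h6
  rw [pow_mul]
  exact h0.trans (h2.trans (h4.trans (Nat.mul_le_mul_left _ h7)))

end Vale.Agent.P181.TR.H283
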